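import Vale.Agent.P013.Final

/-!
# P013: thin sets of primes
-/

open Finset P003

namespace Vale.Agent.P013

/-- a crude bound, used for a bounded number of prime factors -/
theorem crude {M : ℕ} (hM : 0 < M) : jac M ≤ 4 ^ M.primeFactors.card + 1 := by
  set k := M.primeFactors.card with hk
  refine jac_le hM (Nat.succ_pos _) fun n => ?_
  by_contra hcon
  push Not at hcon
  set J := M.primeFactors with hJ
  set H : ℕ := 4 ^ k + 1 with hH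
  have hJp : ∀ p ∈ J, p.Prime := fun p hp => Nat.prime_of_mem_primeFactors hp
  have hQ : 0 < ∏ p ∈ J, p := prodJ_pos hJp
  have hG : ∀ t, (0 : ℝ) ^ hit J n t = ∏ p ∈ J, (1 + (-1) * (if p ∣ 1 * t + n then (1 : ℝ) else 0)) := by
    intro t
    have h1 : ∀ p ∈ J, (1 + (-1) * (if p ∣ 1 * t + n then (1 : ℝ) else 0)) =
        if p ∣ 1 * t + n then 0 else 1 := by
      intro p _
      split_ifs <;> ring
    rw [prod_congr rfl h1, prod_ite, prod_const, prod_const_one, mul_one]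
    rfl
  have hCx : Cx (∏ p ∈ J, p) (∏ _p ∈ J, 2) (fun t => (0 : ℝ) ^ hit J n t) := by
    have h1 : (fun t => (0 : ℝ) ^ hit J n t) =
        (fun t => ∏ p ∈ J, (1 + (-1) * (if p ∣ 1 * t + n then (1 : ℝ) else 0))) := funext hG
    rw [h1]
    refine Cx_prod J (fun _ => 2)
      (fun p t => (1 + (-1) * (if p ∣ 1 * t + n then (1 : ℝ) else 0))) fun p hp => ?_
    exact Cx_add (Cx_const (by simp)) (Cx_smul (by simp)
      (Cx_dvd (hJp p hp) (dvd_prod_of_mem (fun p => p) hp) (not_dvd_one (hJp p hp))))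
  have h1 := Cx_avg hQ hCx H
  have h0 : ∑ t ∈ Ico H (2 * H), (0 : ℝ) ^ hit J n t = 0 := by
    refine sum_eq_zero fun t ht => ?_
    obtain ⟨p, hp, hp1, hp2⟩ := Nat.Prime.not_coprime_iff_dvd.1 (hcon t ht)
    have : 0 < hit J n t :=
      card_pos.2 ⟨p, mem_filter.2 ⟨Nat.mem_primeFactors.2 ⟨hp, hp2, hM.ne'⟩, hp1⟩⟩
    exact zero_pow this.ne'
  have h2 := av_pow hJp n 0
  unfold av at h2
  have h3 : (1 / 2 : ℝ) ^ k ≤ ∏ p ∈ J, (1 + ((0 : ℝ) - 1) / (p : ℝ)) := by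
    rw [hk, ← prod_const]
    refine prod_le_prod (fun _ _ => by norm_num) fun p hp => ?_
    have h3 : (2 : ℝ) ≤ p := by exact_mod_cast (hJp p hp).two_le
    have h4 : 1 / (p : ℝ) ≤ 1 / 2 := one_div_le_one_div_of_le (by norm_num) h3
    have e : ((0 : ℝ) - 1) / (p : ℝ) = -(1 / (p : ℝ)) := by ring
    rw [e]
    linarith
  rw [← h2] at h3
  have h4 : (H : ℝ) / ((∏ p ∈ J, p : ℕ) : ℝ) * ∑ t ∈ range (∏ p ∈ J, p), (0 : ℝ) ^ hit J n t =
      H * ((∑ t ∈ range (∏ p ∈ J, p), (0 : ℝ) ^ hit J n t) / ((∏ p ∈ J, p : ℕ) : ℝ)) := by ring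
  rw [h0, h4, zero_sub, abs_neg, prod_const] at h1
  have h5 := (le_abs_self _).trans h1
  have h6 : (H : ℝ) * (1 / 2 : ℝ) ^ k ≤ 2 ^ k := by
    refine (mul_le_mul_of_nonneg_left h3 (Nat.cast_nonneg H)).trans ?_
    refine h5.trans (le_of_eq ?_)
    push_cast
    rfl
  have h7 : (H : ℝ) ≤ 4 ^ k := by
    have h8 := mul_le_mul_of_nonneg_right h6 (by positivity : (0 : ℝ) ≤ 2 ^ k)
    have e1 : (H : ℝ) * (1 / 2 : ℝ) ^ k * 2 ^ k = H := by
      rw [mul_assoc, ← mul_pow]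
      norm_num
    have e2 : (2 : ℝ) ^ k * 2 ^ k = 4 ^ k := by
      rw [← mul_pow]
      norm_num
    rw [e1, e2] at h8
    exact h8
  rw [hH] at h7
  push_cast at h7
  linarith

/-- sets of primes with small reciprocal sum over `(w, w^A]` -/
theorem thin {ε : ℝ} (hε : 0 < ε) (hε1 : ε < 1 / 2) : ∃ A : ℝ, 1 < A ∧ ∀ (P : Set ℕ) (w₀ : ℝ),
    (∀ (w : ℝ) (s : Finset ℕ), w₀ ≤ w → (∀ p ∈ s, p.Prime ∧ p ∈ P ∧ w < p ∧ (p : ℝ) ≤ w ^ A) →
      ∑ p ∈ s, 1 / (p : ℝ) ≤ 1 - 2 * ε) →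
    ∃ C : ℝ, 0 < C ∧ ∀ n : ℕ, 1 < n → (∀ p ∈ n.primeFactors, p ∈ P) →
      (jac n : ℝ) ≤ C * (n.primeFactors.card : ℝ) ^ (1 + ε) := by
  obtain ⟨δ, hδ, h⟩ := vaughan hε (by linarith)
  refine ⟨max 2 (2 / δ), lt_of_lt_of_le (by norm_num) (le_max_left _ _), ?_⟩
  intro P w₀ hP
  -- a threshold for the number of prime factors
  obtain ⟨K, hK⟩ : ∃ K : ℕ, ∀ k : ℕ, K ≤ k → w₀ ≤ (k : ℝ) ^ δ ∧ 1 / (k : ℝ) ≤ ε ∧ 1 ≤ k := by
    have h1 := (tendsto_rpow_atTop hδ).comp (tendsto_natCast_atTop_atTop (R := ℝ))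
    have h2 := h1.eventually_ge_atTop w₀
    have h3 : ∀ᶠ k : ℕ in Filter.atTop, 1 / (k : ℝ) ≤ ε :=
      (tendsto_one_div_atTop_nhds_zero_nat (𝕜 := ℝ)).eventually_le_const hε
    obtain ⟨K, hK⟩ := Filter.eventually_atTop.1
      ((h2.and h3).and (Filter.eventually_ge_atTop 1))
    exact ⟨K, fun k hk => ⟨(hK k hk).1.1, (hK k hk).1.2, (hK k hk).2⟩⟩
  refine ⟨9 / ε + (4 ^ K + 1), by positivity, ?_⟩
  intro n hn hnP
  set k : ℕ := n.primeFactors.card with hk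
  have hk1 : 1 ≤ k := card_pos.2 (Nat.nonempty_primeFactors.2 hn)
  have hkR : (1 : ℝ) ≤ k := by exact_mod_cast hk1
  have hkp : (1 : ℝ) ≤ (k : ℝ) ^ (1 + ε) := Real.one_le_rpow hkR (by linarith)
  rcases Nat.lt_or_ge k K with hkK | hkK
  · have h1 : (jac n : ℝ) ≤ 4 ^ k + 1 := by exact_mod_cast crude (by omega : 0 < n)
    have h2 : (4 : ℝ) ^ k ≤ 4 ^ K := pow_le_pow_right₀ (by norm_num) hkK.le
    have h3 : (4 ^ K + 1 : ℝ) ≤ (4 ^ K + 1) * (k : ℝ) ^ (1 + ε) :=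
      le_mul_of_one_le_right (by positivity) hkp
    have h4 : 0 ≤ 9 / ε * (k : ℝ) ^ (1 + ε) := by positivity
    rw [add_mul]
    linarith
  · obtain ⟨hw, hkε, _⟩ := hK k hkK
    have hkδ : (1 : ℝ) ≤ (k : ℝ) ^ δ := Real.one_le_rpow hkR hδ.le
    have hsum : (∑ p ∈ n.primeFactors.filter (fun p : ℕ => ((n.primeFactors.card : ℝ)) ^ δ < (p : ℝ)),
        1 / (p : ℝ)) ≤ 1 - ε := by
      rw [← hk]
      set F := n.primeFactors.filter (fun p : ℕ => (k : ℝ) ^ δ < (p : ℝ)) with hF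
      have h1 := sum_filter_add_sum_filter_not F (fun p : ℕ => (p : ℝ) ≤ (k : ℝ) ^ 2)
        (fun p : ℕ => 1 / (p : ℝ))
      have h2 : ∑ p ∈ F.filter (fun p : ℕ => (p : ℝ) ≤ (k : ℝ) ^ 2), 1 / (p : ℝ) ≤ 1 - 2 * ε := by
        refine hP ((k : ℝ) ^ δ) _ hw fun p hp => ?_
        rw [mem_filter, hF, mem_filter] at hp
        refine ⟨Nat.prime_of_mem_primeFactors hp.1.1, hnP p hp.1.1, hp.1.2, hp.2.trans ?_⟩
        calc (k : ℝ) ^ 2 = ((k : ℝ) ^ δ) ^ (2 / δ) := by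
              rw [← Real.rpow_mul (by positivity), ← Real.rpow_natCast]
              congr 1
              push_cast
              field_simp
          _ ≤ ((k : ℝ) ^ δ) ^ (max 2 (2 / δ)) :=
              Real.rpow_le_rpow_of_exponent_le hkδ (le_max_right _ _)
      have h3 : ∑ p ∈ F.filter (fun p : ℕ => ¬ (p : ℝ) ≤ (k : ℝ) ^ 2), 1 / (p : ℝ) ≤ ε := by
        have h4 : ∀ p ∈ F.filter (fun p : ℕ => ¬ (p : ℝ) ≤ (k : ℝ) ^ 2), 1 / (p : ℝ) ≤ 1 / (k : ℝ) ^ 2 := by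
          intro p hp
          rw [mem_filter] at hp
          exact one_div_le_one_div_of_le (by positivity) (not_le.1 hp.2).le
        have h5 : ((F.filter (fun p : ℕ => ¬ (p : ℝ) ≤ (k : ℝ) ^ 2)).card : ℝ) ≤ k := by
          have h6 : (F.filter (fun p : ℕ => ¬ (p : ℝ) ≤ (k : ℝ) ^ 2)).card ≤ k :=
            (card_filter_le _ _).trans (card_filter_le _ _)
          exact_mod_cast h6
        calc ∑ p ∈ F.filter (fun p : ℕ => ¬ (p : ℝ) ≤ (k : ℝ) ^ 2), 1 / (p : ℝ)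
            ≤ ∑ _p ∈ F.filter (fun p : ℕ => ¬ (p : ℝ) ≤ (k : ℝ) ^ 2), 1 / (k : ℝ) ^ 2 :=
              sum_le_sum h4
          _ = (F.filter (fun p : ℕ => ¬ (p : ℝ) ≤ (k : ℝ) ^ 2)).card * (1 / (k : ℝ) ^ 2) := by
              rw [sum_const, nsmul_eq_mul]
          _ ≤ k * (1 / (k : ℝ) ^ 2) := mul_le_mul_of_nonneg_right h5 (by positivity)
          _ = 1 / k := by
              field_simp
          _ ≤ ε := hkε
      linarith
    have h1 := h n hn hsum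
    rw [← hk] at h1
    have h4 : 0 ≤ (4 ^ K + 1 : ℝ) * (k : ℝ) ^ (1 + ε) := by positivity
    rw [add_mul]
    linarith

end Vale.Agent.P013
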