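import Vale.Agent.P013.Cor

/-!
# P013: sets of primes of relative density zero
-/

open Finset Filter

namespace Vale.Agent.P013

/-- reciprocal sum over a dyadic chain -/
theorem dyadic {P : Set ℕ} {η X : ℝ} (hη : 0 ≤ η) (hX : 3 ≤ X)
    (hP : ∀ (x : ℝ) (s : Finset ℕ), X ≤ x → (∀ p ∈ s, p.Prime ∧ p ∈ P ∧ (p : ℝ) ≤ x) →
      (s.card : ℝ) ≤ η * (x / Real.log x)) (m : ℕ) (w : ℝ) (hw : X ≤ w) (s : Finset ℕ)
    (hs : ∀ p ∈ s, p.Prime ∧ p ∈ P ∧ w < p ∧ (p : ℝ) ≤ w * 2 ^ m) :
    ∑ p ∈ s, 1 / (p : ℝ) ≤ m * (2 * η / Real.log w) := by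
  have hw0 : 0 < w := by linarith
  have hlw : 0 < Real.log w := Real.log_pos (by linarith)
  induction m generalizing s with
  | zero =>
    have : s = ∅ := by
      refine eq_empty_of_forall_notMem fun p hp => ?_
      have := hs p hp
      simp at this
      linarith [this.2.2.1, this.2.2.2]
    simp [this]
  | succ m ih =>
    have h1 := sum_filter_add_sum_filter_not s (fun p : ℕ => (p : ℝ) ≤ w * 2 ^ m)
      (fun p : ℕ => 1 / (p : ℝ))
    have h2 := ih (s.filter (fun p : ℕ => (p : ℝ) ≤ w * 2 ^ m)) (fun p hp => by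
      rw [mem_filter] at hp
      have := hs p hp.1
      exact ⟨this.1, this.2.1, this.2.2.1, hp.2⟩)
    have h3 : ∑ p ∈ s.filter (fun p : ℕ => ¬ (p : ℝ) ≤ w * 2 ^ m), 1 / (p : ℝ) ≤
        2 * η / Real.log w := by
      set F := s.filter (fun p : ℕ => ¬ (p : ℝ) ≤ w * 2 ^ m) with hF
      have h4 : ∀ p ∈ F, 1 / (p : ℝ) ≤ 1 / (w * 2 ^ m) := by
        intro p hp
        rw [hF, mem_filter] at hp
        exact one_div_le_one_div_of_le (by positivity) (not_le.1 hp.2).le
      have h1m : (1 : ℝ) ≤ 2 ^ (m + 1) := one_le_pow₀ (by norm_num)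
      have hxw : w ≤ w * 2 ^ (m + 1) := le_mul_of_one_le_right hw0.le h1m
      have h5 : (F.card : ℝ) ≤ η * (w * 2 ^ (m + 1) / Real.log (w * 2 ^ (m + 1))) := by
        refine hP _ F (hw.trans hxw) fun p hp => ?_
        rw [hF, mem_filter] at hp
        have := hs p hp.1
        exact ⟨this.1, this.2.1, this.2.2.2⟩
      have h6 : Real.log w ≤ Real.log (w * 2 ^ (m + 1)) := Real.log_le_log hw0 hxw
      calc ∑ p ∈ F, 1 / (p : ℝ) ≤ ∑ _p ∈ F, 1 / (w * 2 ^ m) := sum_le_sum h4
        _ = F.card * (1 / (w * 2 ^ m)) := by rw [sum_const, nsmul_eq_mul]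
        _ ≤ η * (w * 2 ^ (m + 1) / Real.log (w * 2 ^ (m + 1))) * (1 / (w * 2 ^ m)) :=
            mul_le_mul_of_nonneg_right h5 (by positivity)
        _ = 2 * η / Real.log (w * 2 ^ (m + 1)) := by
            field_simp
            ring
        _ ≤ 2 * η / Real.log w := div_le_div_of_nonneg_left (by positivity) hlw h6
    push_cast
    linarith

/-- **Vaughan's bound for sets of primes of relative density zero** -/
theorem density_zero (P : Set ℕ)
    (hP : Tendsto (fun N : ℕ => (({p : ℕ | p.Prime ∧ p ∈ P ∧ p ≤ N}.ncard : ℕ) : ℝ) *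
      Real.log N / N) atTop (nhds 0))
    {ε : ℝ} (hε : 0 < ε) : ∃ C : ℝ, 0 < C ∧ ∀ n : ℕ, 1 < n → (∀ p ∈ n.primeFactors, p ∈ P) →
      (jac n : ℝ) ≤ C * (n.primeFactors.card : ℝ) ^ (1 + ε) := by
  have hm : 0 < min ε (1 / 4) := lt_min hε (by norm_num)
  have hm4 : min ε (1 / 4) ≤ 1 / 4 := min_le_right _ _
  obtain ⟨A, hA, h⟩ := thin hm (by linarith)
  have hA0 : 0 < A := by linarith
  set η : ℝ := 1 / (6 * A) with hη
  have hη0 : 0 < η := by positivity
  obtain ⟨N0, hN0⟩ := eventually_atTop.1 (hP.eventually_le_const (half_pos hη0))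
  set X : ℝ := max 4 (N0 + 1) with hX
  have hX4 : 4 ≤ X := le_max_left _ _
  have hXN : (N0 : ℝ) + 1 ≤ X := le_max_right _ _
  have hcount : ∀ (x : ℝ) (s : Finset ℕ), X ≤ x → (∀ p ∈ s, p.Prime ∧ p ∈ P ∧ (p : ℝ) ≤ x) →
      (s.card : ℝ) ≤ η * (x / Real.log x) := by
    intro x s hx hs
    have hx4 : 4 ≤ x := hX4.trans hx
    have hx0 : 0 < x := by linarith
    set N : ℕ := ⌊x⌋₊ with hN
    have hNx : (N : ℝ) ≤ x := Nat.floor_le hx0.le
    have hxN : x < N + 1 := Nat.lt_floor_add_one x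
    have hN0N : N0 ≤ N := by
      refine Nat.le_floor ?_
      linarith
    have hN2 : x / 2 ≤ N := by linarith
    have hNpos : (0 : ℝ) < N := by linarith
    have hlog : Real.log x / 2 ≤ Real.log N := by
      have h1 : Real.log x ≤ Real.log ((N : ℝ) ^ 2) := by
        refine Real.log_le_log hx0 ?_
        nlinarith
      rw [Real.log_pow] at h1
      push_cast at h1
      linarith
    have hlx : 0 < Real.log x := Real.log_pos (by linarith)
    have hlN : 0 < Real.log N := by linarith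
    have h1 : (s.card : ℝ) ≤ ({p : ℕ | p.Prime ∧ p ∈ P ∧ p ≤ N}.ncard : ℕ) := by
      have hfin : {p : ℕ | p.Prime ∧ p ∈ P ∧ p ≤ N}.Finite :=
        (Set.finite_Iic N).subset fun p hp => hp.2.2
      have h2 : (s : Set ℕ) ⊆ {p : ℕ | p.Prime ∧ p ∈ P ∧ p ≤ N} := by
        intro p hp
        have := hs p hp
        exact ⟨this.1, this.2.1, Nat.le_floor this.2.2⟩
      have h3 := Set.ncard_le_ncard h2 hfin
      rw [Set.ncard_coe_finset] at h3
      exact_mod_cast h3
    have h2 := hN0 N hN0N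
    have h3 : (({p : ℕ | p.Prime ∧ p ∈ P ∧ p ≤ N}.ncard : ℕ) : ℝ) ≤
        η / 2 * (N / Real.log N) := by
      rw [div_le_iff₀ hNpos] at h2
      rw [mul_div_assoc', le_div_iff₀ hlN]
      exact h2
    refine h1.trans (h3.trans ?_)
    have h4 : N / Real.log N ≤ x / (Real.log x / 2) :=
      div_le_div₀ hx0.le hNx (by positivity) hlog
    calc η / 2 * (N / Real.log N) ≤ η / 2 * (x / (Real.log x / 2)) :=
          mul_le_mul_of_nonneg_left h4 (by positivity)
      _ = η * (x / Real.log x) := by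
          field_simp
  obtain ⟨C, hC, hC2⟩ := h P X (by
    intro w s hw hs
    have hw4 : 4 ≤ w := hX4.trans hw
    have hw0 : 0 < w := by linarith
    have hlw : Real.log 2 ≤ Real.log w := Real.log_le_log (by norm_num) (by linarith)
    have hl2 : 0.6931471803 < Real.log 2 := Real.log_two_gt_d9
    have hlw0 : 0 < Real.log w := by linarith
    set m : ℕ := ⌈(A - 1) * Real.log w / Real.log 2⌉₊ with hm
    have hm1 : (A - 1) * Real.log w / Real.log 2 ≤ m := Nat.le_ceil _
    have hm2 : (m : ℝ) < (A - 1) * Real.log w / Real.log 2 + 1 :=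
      Nat.ceil_lt_add_one (by
        have : 0 < A - 1 := by linarith
        positivity)
    have hpow : w ^ A ≤ w * 2 ^ m := by
      have e1 : w ^ A = Real.exp (A * Real.log w) := by
        rw [Real.rpow_def_of_pos hw0, mul_comm]
      have e2 : w * 2 ^ m = Real.exp (Real.log w + m * Real.log 2) := by
        rw [Real.exp_add, Real.exp_log hw0, mul_comm (m : ℝ), Real.exp_mul,
          Real.exp_log (by norm_num), Real.rpow_natCast]
      rw [e1, e2]
      refine Real.exp_le_exp.2 ?_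
      rw [div_le_iff₀ (by linarith)] at hm1
      linarith
    have h1 := dyadic hη0.le (by linarith : (3 : ℝ) ≤ X) hcount m w hw s (fun p hp => by
      have := hs p hp
      exact ⟨this.1, this.2.1, this.2.2.1, this.2.2.2.trans hpow⟩)
    refine h1.trans ?_
    have hm3 : (m : ℝ) ≤ A * Real.log w / Real.log 2 := by
      have h2 : 1 ≤ Real.log w / Real.log 2 := by
        rw [le_div_iff₀ (by linarith)]
        linarith
      have h3 : A * Real.log w / Real.log 2 = (A - 1) * Real.log w / Real.log 2 +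
          Real.log w / Real.log 2 := by ring
      rw [h3]
      linarith
    have h4 : (m : ℝ) * (2 * η / Real.log w) ≤ A * Real.log w / Real.log 2 *
        (2 * η / Real.log w) := mul_le_mul_of_nonneg_right hm3 (by positivity)
    refine h4.trans ?_
    have h5 : A * Real.log w / Real.log 2 * (2 * η / Real.log w) = 1 / (3 * Real.log 2) := by
      rw [hη]
      field_simp
      ring
    rw [h5, div_le_iff₀ (by linarith)]
    nlinarith)
  refine ⟨C, hC, fun n hn hnP => (hC2 n hn hnP).trans ?_⟩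
  have hk1 : 1 ≤ n.primeFactors.card := card_pos.2 (Nat.nonempty_primeFactors.2 hn)
  have hkR : (1 : ℝ) ≤ n.primeFactors.card := by exact_mod_cast hk1
  refine mul_le_mul_of_nonneg_left ?_ hC.le
  refine Real.rpow_le_rpow_of_exponent_le hkR ?_
  have := min_le_left ε (1 / 4)
  linarith

end Vale.Agent.P013
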