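import Vale.Agent.P013.Main
import Vale.Agent.P013.Defs

/-!
# P013: Vaughan's bound when the large prime factors have small reciprocal sum
-/

open Finset P003

namespace Vale.Agent.P013

theorem prod_Ioc (X : ℕ) (hX : 1 ≤ X) : ∏ m ∈ Ioc 1 X, (1 - 1 / (m : ℝ)) = 1 / X := by
  induction X, hX using Nat.le_induction with
  | base => simp
  | succ X hX ih =>
    rw [Finset.prod_Ioc_succ_top (by omega), ih]
    have : (X : ℝ) ≠ 0 := by exact_mod_cast (by omega : X ≠ 0)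
    have h2 : (X : ℝ) + 1 ≠ 0 := by positivity
    push_cast
    field_simp
    ring

theorem E_ge {M X : ℕ} (hX : 1 ≤ X) (b n : ℕ) :
    1 / (X : ℝ) ≤ ∏ r ∈ range (RR X), av (Jr M X r) n (fun w => (tb (b + r) w : ℝ)) := by
  classical
  have h1 : ∏ r ∈ range (RR X), ∏ p ∈ Jr M X r, (1 - 1 / (p : ℝ)) ≤
      ∏ r ∈ range (RR X), av (Jr M X r) n (fun w => (tb (b + r) w : ℝ)) := by
    refine prod_le_prod (fun r _ => prod_nonneg fun p hp => ?_) fun r _ =>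
      av_tb_ge (fun p hp => prime_Jr hp) n (b + r)
    have h3 : (2 : ℝ) ≤ p := by exact_mod_cast (prime_Jr hp).two_le
    have h4 : 1 / (p : ℝ) ≤ 1 / 2 := one_div_le_one_div_of_le (by norm_num) h3
    linarith
  refine le_trans ?_ h1
  rw [← prod_biUnion]
  · rw [← prod_Ioc X hX]
    have hsub : (range (RR X)).biUnion (fun r => Jr M X r) ⊆ Ioc 1 X := by
      intro p hp
      rw [mem_biUnion] at hp
      obtain ⟨r, _, hp⟩ := hp
      exact mem_Ioc.2 ⟨(prime_Jr hp).one_lt, le_Jr hp⟩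
    rw [← prod_sdiff hsub]
    have hf : ∀ m ∈ Ioc 1 X, 0 ≤ 1 - 1 / (m : ℝ) ∧ 1 - 1 / (m : ℝ) ≤ 1 := by
      intro m hm
      rw [mem_Ioc] at hm
      have h3 : (1 : ℝ) ≤ m := by exact_mod_cast hm.1.le
      have h4 : 1 / (m : ℝ) ≤ 1 := by
        rw [div_le_one (by linarith)]
        exact h3
      have h5 : 0 ≤ 1 / (m : ℝ) := by positivity
      constructor <;> linarith
    refine mul_le_of_le_one_left (prod_nonneg fun m hm => (hf m (hsub hm)).1) ?_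
    exact prod_le_one (fun m hm => (hf m (mem_sdiff.1 hm).1).1)
      fun m hm => (hf m (mem_sdiff.1 hm).1).2
  · intro r _ s _ hrs
    exact (JJ_disj (X := X) (D := 0) hrs).mono (filter_subset _ _) (filter_subset _ _)

theorem expo (b R : ℕ) : ∑ r ∈ range R, (2 * ((b : ℝ) + r) + 1) / 2 ^ r ≤ 4 * b + 6 := by
  have h1 : ∑ r ∈ range R, (2 * ((b : ℝ) + r) + 1) / 2 ^ r =
      (2 * b + 1) * ∑ r ∈ range R, (1 / 2 : ℝ) ^ r + 2 * ∑ r ∈ range R, (r : ℝ) / 2 ^ r := by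
    rw [mul_sum, mul_sum, ← sum_add_distrib]
    refine sum_congr rfl fun r _ => ?_
    rw [one_div, inv_pow]
    field_simp
    ring
  rw [h1, cxnu_geom]
  have h2 : ∑ r ∈ range R, (1 / 2 : ℝ) ^ r ≤ 2 := sum_geometric_two_le R
  have h3 : (0 : ℝ) ≤ 2 * ((R : ℝ) + 1) / 2 ^ R := by positivity
  have h4 : (2 * (b : ℝ) + 1) * ∑ r ∈ range R, (1 / 2 : ℝ) ^ r ≤ (2 * b + 1) * 2 :=
    mul_le_mul_of_nonneg_left h2 (by positivity)
  linarith

theorem N_le {M X : ℕ} (hX : 1 ≤ X) (b : ℕ) :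
    ((∏ r ∈ range (RR X), cc M X b r : ℕ) : ℝ) ≤ (X : ℝ) ^ (4 * b + 6) := by
  have hXR : (1 : ℝ) ≤ X := by exact_mod_cast hX
  push_cast
  have h1 : ∏ r ∈ range (RR X), (cc M X b r : ℝ) ≤
      ∏ r ∈ range (RR X), (X : ℝ) ^ ((2 * ((b : ℝ) + r) + 1) / 2 ^ r) := by
    refine prod_le_prod (fun r _ => Nat.cast_nonneg _) fun r _ => ?_
    unfold cc
    have h2 : 1 + ((Jr M X r).card : ℝ) ≤ (X : ℝ) ^ ((1 : ℝ) / 2 ^ r) := by
      refine le_trans ?_ (zz_le_rpow X r)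
      have h3 := card_JJ hX 0 r
      have h5 : (Jr M X r).card ≤ (JJ X 0 r).card := card_le_card (filter_subset _ _)
      have h4 : (((Jr M X r).card + 1 : ℕ) : ℝ) ≤ zz X r := by exact_mod_cast (by omega)
      push_cast at h4
      linarith
    push_cast
    calc (1 + ((Jr M X r).card : ℝ)) ^ (2 * (b + r) + 1) ≤
        ((X : ℝ) ^ ((1 : ℝ) / 2 ^ r)) ^ (2 * (b + r) + 1) :=
          pow_le_pow_left₀ (by positivity) h2 _
      _ = (X : ℝ) ^ ((2 * ((b : ℝ) + r) + 1) / 2 ^ r) := by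
          rw [← Real.rpow_natCast, ← Real.rpow_mul (by linarith)]
          congr 1
          push_cast
          ring
  refine h1.trans ?_
  rw [← Real.rpow_sum_of_pos (by linarith), ← Real.rpow_natCast]
  refine Real.rpow_le_rpow_of_exponent_le hXR ?_
  push_cast
  exact expo b (RR X)

theorem RR_le (X : ℕ) : RR X ≤ X + 1 := by
  unfold RR
  have h1 := Nat.log_le_self 2 (Nat.log 2 X)
  have h2 := Nat.log_le_self 2 X
  omega

theorem small_sum {S ε : ℝ} {b : ℕ} (h : Real.exp (6 * S) * (1 / 16 : ℝ) ^ b ≤ ε) (R : ℕ) :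
    ∑ r ∈ range R, Real.exp (6 * S) / 4 ^ (2 * (b + r) + 1) ≤ ε / 2 := by
  have hε : 0 ≤ ε := le_trans (by positivity) h
  have h1 : ∀ r ∈ range R, Real.exp (6 * S) / 4 ^ (2 * (b + r) + 1) ≤
      (Real.exp (6 * S) * (1 / 16 : ℝ) ^ b / 4) * (1 / 4 : ℝ) ^ r := by
    intro r _
    have e : Real.exp (6 * S) / 4 ^ (2 * (b + r) + 1) =
        (Real.exp (6 * S) * (1 / 16 : ℝ) ^ b / 4) * (1 / 16 : ℝ) ^ r := by
      have e1 : (4 : ℝ) ^ (2 * (b + r) + 1) = 16 ^ b * 16 ^ r * 4 := by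
        rw [pow_succ, pow_mul, pow_add]
        norm_num
      rw [e1, one_div, inv_pow, inv_pow]
      field_simp
    rw [e]
    refine mul_le_mul_of_nonneg_left ?_ (by positivity)
    exact pow_le_pow_left₀ (by norm_num) (by norm_num) r
  refine (sum_le_sum h1).trans ?_
  rw [← mul_sum]
  calc (Real.exp (6 * S) * (1 / 16 : ℝ) ^ b / 4) * ∑ r ∈ range R, (1 / 4 : ℝ) ^ r
      ≤ (Real.exp (6 * S) * (1 / 16 : ℝ) ^ b / 4) * (4 / 3) :=
        mul_le_mul_of_nonneg_left (geom_quarter R) (by positivity)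
    _ ≤ ε / 4 * (4 / 3) := by
        refine mul_le_mul_of_nonneg_right ?_ (by norm_num)
        linarith
    _ ≤ ε / 2 := by linarith

/-- the interval statement -/
theorem exists_coprime {ε : ℝ} (hε : 0 < ε) (hε1 : ε < 1) : ∃ δ : ℝ, 0 < δ ∧ ∀ M : ℕ, 1 < M →
    (∑ p ∈ M.primeFactors.filter (fun p : ℕ => ((M.primeFactors.card : ℝ)) ^ δ < (p : ℝ)),
      1 / (p : ℝ)) ≤ 1 - ε →
    ∀ H : ℕ, 8 / ε * (M.primeFactors.card : ℝ) ^ (1 + ε) < H →
      ∀ n : ℕ, ∃ t ∈ Ico H (2 * H), (1 * t + n).Coprime M := by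
  obtain ⟨S, hS0, hS⟩ := sum_inv_JJ
  obtain ⟨b, hb⟩ : ∃ b : ℕ, Real.exp (6 * S) * (1 / 16 : ℝ) ^ b ≤ ε := by
    obtain ⟨b, hb⟩ := exists_pow_lt_of_lt_one (x := ε / Real.exp (6 * S)) (y := (1 / 16 : ℝ))
      (by positivity) (by norm_num)
    refine ⟨b, ?_⟩
    rw [lt_div_iff₀ (Real.exp_pos _)] at hb
    linarith
  refine ⟨ε / (4 * b + 7), by positivity, ?_⟩
  intro M hM hsum H hH n
  by_contra hcon
  push Not at hcon
  set δ : ℝ := ε / (4 * b + 7) with hδ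
  have hδ0 : 0 < δ := by positivity
  have hδ1 : δ ≤ 1 := by
    rw [hδ, div_le_one (by positivity)]
    have : (0 : ℝ) ≤ b := Nat.cast_nonneg b
    linarith
  set k : ℕ := M.primeFactors.card with hk
  have hk1 : 1 ≤ k := card_pos.2 (Nat.nonempty_primeFactors.2 hM)
  have hkR : (1 : ℝ) ≤ k := by exact_mod_cast hk1
  set X : ℕ := ⌊(k : ℝ) ^ δ⌋₊ with hX
  have hkδ : (1 : ℝ) ≤ (k : ℝ) ^ δ := Real.one_le_rpow hkR hδ0.le
  have hX1 : 1 ≤ X := Nat.le_floor (by exact_mod_cast hkδ)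
  have hXk : (X : ℝ) ≤ (k : ℝ) ^ δ := Nat.floor_le (by positivity)
  have hXk' : (X : ℝ) ≤ k := by
    refine hXk.trans ?_
    calc (k : ℝ) ^ δ ≤ (k : ℝ) ^ (1 : ℝ) := Real.rpow_le_rpow_of_exponent_le hkR hδ1
      _ = k := Real.rpow_one _
  have hL : Lg M X = M.primeFactors.filter (fun p : ℕ => (k : ℝ) ^ δ < (p : ℝ)) := by
    unfold Lg
    refine filter_congr fun p _ => ?_
    rw [hX]
    exact Nat.floor_lt (by positivity)
  have h1 := main_ineq (M := M) (X := X) (by omega) (hS X 0) b n H hcon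
  have h2 := small_sum hb (RR X)
  have h3 := E_ge (M := M) hX1 b n
  have h4 := N_le (M := M) hX1 b
  rw [hL] at h1
  have hcard : ((M.primeFactors.filter (fun p : ℕ => (k : ℝ) ^ δ < (p : ℝ))).card : ℝ) ≤ k := by
    exact_mod_cast card_filter_le _ _
  have hXR : (1 : ℝ) ≤ X := by exact_mod_cast hX1
  set E := ∏ r ∈ range (RR X), av (Jr M X r) n (fun w => (tb (b + r) w : ℝ)) with hE
  have hE0 : 0 < E := lt_of_lt_of_le (by positivity) h3
  have hRR : (RR X : ℝ) ≤ X + 1 := by exact_mod_cast RR_le X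
  have h5 : (H : ℝ) * (1 / X) * (ε / 2) ≤ (X : ℝ) ^ (4 * b + 6) * (4 * k) := by
    calc (H : ℝ) * (1 / X) * (ε / 2) ≤ H * E * (ε / 2) := by gcongr
      _ ≤ H * E * (1 - ∑ r ∈ range (RR X), Real.exp (6 * S) / 4 ^ (2 * (b + r) + 1) -
          ∑ p ∈ M.primeFactors.filter (fun p : ℕ => (k : ℝ) ^ δ < (p : ℝ)), 1 / (p : ℝ)) := by
          refine mul_le_mul_of_nonneg_left ?_ (by positivity)
          linarith
      _ ≤ (∏ r ∈ range (RR X), cc M X b r : ℕ) * (1 + RR X +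
          (M.primeFactors.filter (fun p : ℕ => (k : ℝ) ^ δ < (p : ℝ))).card) := h1
      _ ≤ (X : ℝ) ^ (4 * b + 6) * (4 * k) := by
          refine mul_le_mul h4 ?_ (by positivity) (by positivity)
          linarith
  have h6 : (H : ℝ) * (ε / 2) ≤ (k : ℝ) ^ ε * (4 * k) := by
    have h7 : (H : ℝ) * (ε / 2) ≤ (X : ℝ) ^ (4 * b + 7) * (4 * k) := by
      have h8 := mul_le_mul_of_nonneg_left h5 (by positivity : (0 : ℝ) ≤ X)
      have e1 : (X : ℝ) * (H * (1 / X) * (ε / 2)) = H * (ε / 2) := by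
        field_simp
      have e2 : (X : ℝ) * ((X : ℝ) ^ (4 * b + 6) * (4 * k)) = (X : ℝ) ^ (4 * b + 7) * (4 * k) := by
        ring
      rw [e1, e2] at h8
      exact h8
    refine h7.trans ?_
    refine mul_le_mul_of_nonneg_right ?_ (by positivity)
    calc (X : ℝ) ^ (4 * b + 7) ≤ ((k : ℝ) ^ δ) ^ (4 * b + 7) :=
          pow_le_pow_left₀ (by positivity) hXk _
      _ = (k : ℝ) ^ ε := by
          rw [← Real.rpow_natCast, ← Real.rpow_mul (by positivity)]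
          congr 1
          push_cast
          rw [hδ]
          field_simp
  have h9 : (H : ℝ) ≤ 8 / ε * (k : ℝ) ^ (1 + ε) := by
    rw [Real.rpow_add (by linarith), Real.rpow_one, div_mul_eq_mul_div, le_div_iff₀ hε]
    linarith
  linarith

theorem coprime_shift {M H : ℕ} (hM : 0 < M)
    (h : ∀ n : ℕ, ∃ t ∈ Ico H (2 * H), (1 * t + n).Coprime M) (a : ℤ) :
    ∃ i : ℕ, i < H ∧ IsCoprime (a + i) (M : ℤ) := by
  have hMZ : (0 : ℤ) < M := by exact_mod_cast hM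
  obtain ⟨t, ht, hc⟩ := h ((a - H) % M).toNat
  rw [mem_Ico] at ht
  refine ⟨t - H, by omega, ?_⟩
  have h1 : (((a - H) % M).toNat : ℤ) = (a - H) % M := Int.toNat_of_nonneg (Int.emod_nonneg _ hMZ.ne')
  have h2 := Int.emod_add_mul_ediv (a - H) M
  have h3 : a + ((t - H : ℕ) : ℤ) = ((1 * t + ((a - H) % M).toNat : ℕ) : ℤ) + ((a - H) / M) * M := by
    push_cast [Nat.cast_sub ht.1]
    rw [h1]
    linarith
  rw [h3]
  exact (Nat.isCoprime_iff_coprime.2 hc).add_mul_right_left _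

theorem jac_le {M H : ℕ} (hM : 0 < M) (hH : 0 < H)
    (h : ∀ n : ℕ, ∃ t ∈ Ico H (2 * H), (1 * t + n).Coprime M) : jac M ≤ H :=
  Nat.sInf_le ⟨hH, coprime_shift hM h⟩

theorem jac_isLeast {n : ℕ} (hn : 0 < n) :
    IsLeast {m : ℕ | 0 < m ∧ ∀ a : ℤ, ∃ i : ℕ, i < m ∧ IsCoprime (a + i) (n : ℤ)} (jac n) := by
  have hnZ : (0 : ℤ) < n := by exact_mod_cast hn
  have hne : {m : ℕ | 0 < m ∧ ∀ a : ℤ, ∃ i : ℕ, i < m ∧ IsCoprime (a + i) (n : ℤ)}.Nonempty := by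
    refine ⟨n, hn, fun a => ⟨((1 - a) % n).toNat, ?_, ?_⟩⟩
    · have h1 := Int.emod_lt_of_pos (1 - a) hnZ
      have h2 := Int.emod_nonneg (1 - a) hnZ.ne'
      omega
    · have h1 : (((1 - a) % n).toNat : ℤ) = (1 - a) % n :=
        Int.toNat_of_nonneg (Int.emod_nonneg _ hnZ.ne')
      have h2 := Int.emod_add_mul_ediv (1 - a) n
      have h3 : a + (((1 - a) % n).toNat : ℤ) = 1 + (-((1 - a) / n)) * n := by
        rw [h1]
        linarith
      rw [h3]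
      exact isCoprime_one_left.add_mul_right_left _
  exact ⟨Nat.sInf_mem hne, fun m hm => Nat.sInf_le hm⟩

theorem vaughan {ε : ℝ} (hε : 0 < ε) (hε1 : ε < 1) : ∃ δ : ℝ, 0 < δ ∧ ∀ n : ℕ, 1 < n →
    (∑ p ∈ n.primeFactors.filter (fun p : ℕ => ((n.primeFactors.card : ℝ)) ^ δ < (p : ℝ)),
      1 / (p : ℝ)) ≤ 1 - ε →
    (jac n : ℝ) ≤ 9 / ε * (n.primeFactors.card : ℝ) ^ (1 + ε) := by
  obtain ⟨δ, hδ, h⟩ := exists_coprime hε hε1
  refine ⟨δ, hδ, fun n hn hsum => ?_⟩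
  set k : ℕ := n.primeFactors.card with hk
  have hk1 : 1 ≤ k := card_pos.2 (Nat.nonempty_primeFactors.2 hn)
  have hkR : (1 : ℝ) ≤ k := by exact_mod_cast hk1
  have hkp : (1 : ℝ) ≤ (k : ℝ) ^ (1 + ε) := Real.one_le_rpow hkR (by linarith)
  have hlt := Nat.lt_floor_add_one (8 / ε * (k : ℝ) ^ (1 + ε))
  have h1 := h n hn hsum (⌊8 / ε * (k : ℝ) ^ (1 + ε)⌋₊ + 1) (by push_cast; exact hlt)
  have h2 := jac_le (by omega) (Nat.succ_pos _) h1
  have h3 : (jac n : ℝ) ≤ ⌊8 / ε * (k : ℝ) ^ (1 + ε)⌋₊ + 1 := by exact_mod_cast h2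
  have h4 := Nat.floor_le (a := 8 / ε * (k : ℝ) ^ (1 + ε)) (by positivity)
  have h5 : 1 ≤ 1 / ε * (k : ℝ) ^ (1 + ε) := by
    have : 1 ≤ 1 / ε := by
      rw [le_div_iff₀ hε]
      linarith
    nlinarith
  have e : 9 / ε * (k : ℝ) ^ (1 + ε) = 8 / ε * (k : ℝ) ^ (1 + ε) + 1 / ε * (k : ℝ) ^ (1 + ε) := by
    ring
  rw [e]
  linarith

end Vale.Agent.P013
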