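import Vale.Agent.P003.CxNu
import Vale.Agent.P003.Crt
import Vale.Agent.P003.LocB

/-!
# P013: local averages (Brun-Hooley sieve), using the tools of P003
-/

open Finset P003

namespace Vale.Agent.P013

/-- number of primes of `J` dividing `t + n` -/
def hit (J : Finset ℕ) (n t : ℕ) : ℕ := (J.filter (fun p => p ∣ 1 * t + n)).card

/-- average over a period -/
noncomputable def av (J : Finset ℕ) (n : ℕ) (f : ℕ → ℝ) : ℝ :=
  (∑ t ∈ range (∏ p ∈ J, p), f (hit J n t)) / ((∏ p ∈ J, p : ℕ) : ℝ)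

theorem prodJ_pos {J : Finset ℕ} (hJ : ∀ p ∈ J, p.Prime) : 0 < ∏ p ∈ J, p :=
  prod_pos fun p hp => (hJ p hp).pos

theorem not_dvd_one {p : ℕ} (hp : p.Prime) : ¬ p ∣ 1 := fun h => hp.one_lt.ne' (Nat.dvd_one.1 h)

theorem sum_one_class {p : ℕ} (hp : p.Prime) (n : ℕ) :
    ∑ t ∈ range p, (if p ∣ 1 * t + n then (1 : ℝ) else 0) = 1 := by
  rw [sum_boole, card_class hp (not_dvd_one hp) n]
  norm_num

theorem dvd_per {p : ℕ} (n t : ℕ) : (p ∣ 1 * (t + p) + n) ↔ (p ∣ 1 * t + n) := by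
  have e : 1 * (t + p) + n = (1 * t + n) + p := by ring
  rw [e]
  exact Nat.dvd_add_left (dvd_refl p)

theorem av_pow {J : Finset ℕ} (hJ : ∀ p ∈ J, p.Prime) (n : ℕ) (x : ℝ) :
    av J n (fun w => x ^ w) = ∏ p ∈ J, (1 + (x - 1) / (p : ℝ)) := by
  unfold av hit
  have h1 : ∀ t, x ^ ((J.filter (fun p => p ∣ 1 * t + n)).card) =
      ∏ p ∈ J, (if p ∣ 1 * t + n then x else 1) := by
    intro t
    rw [prod_ite, prod_const, prod_const_one, mul_one]
  rw [sum_congr rfl fun t _ => h1 t]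
  rw [avg_prod_coprime J (fun p => p) (fun p hp => (hJ p hp).pos)
    (fun p hp q hq hne => (Nat.coprime_primes (hJ p hp) (hJ q hq)).2 hne)
    (fun p t => if p ∣ 1 * t + n then x else 1)
    (fun p _ t => by simp only [dvd_per])]
  refine prod_congr rfl fun p hp => ?_
  have hp0 : (p : ℝ) ≠ 0 := by exact_mod_cast (hJ p hp).ne_zero
  have h2 : ∀ t, (if p ∣ 1 * t + n then x else 1) =
      1 + (x - 1) * (if p ∣ 1 * t + n then (1 : ℝ) else 0) := by
    intro t
    split_ifs <;> ring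
  rw [sum_congr rfl fun t _ => h2 t, sum_add_distrib, ← mul_sum, sum_one_class (hJ p hp)]
  simp only [sum_const, card_range, nsmul_eq_mul, mul_one]
  field_simp

theorem av_mono {J : Finset ℕ} {n : ℕ} {f g : ℕ → ℝ} (h : ∀ w, f w ≤ g w) :
    av J n f ≤ av J n g := by
  unfold av
  exact div_le_div_of_nonneg_right (sum_le_sum fun t _ => h _) (Nat.cast_nonneg _)

theorem av_nonneg {J : Finset ℕ} {n : ℕ} {f : ℕ → ℝ} (h : ∀ w, 0 ≤ f w) : 0 ≤ av J n f := by
  unfold av
  exact div_nonneg (sum_nonneg fun t _ => h _) (Nat.cast_nonneg _)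

theorem av_smul {J : Finset ℕ} {n : ℕ} (c : ℝ) (f : ℕ → ℝ) :
    av J n (fun w => c * f w) = c * av J n f := by
  unfold av
  rw [← mul_sum, mul_div_assoc]

/-- lower bound of the local factor -/
theorem av_tb_ge {J : Finset ℕ} (hJ : ∀ p ∈ J, p.Prime) (n b : ℕ) :
    ∏ p ∈ J, (1 - 1 / (p : ℝ)) ≤ av J n (fun w => (tb b w : ℝ)) := by
  have h1 := av_pow hJ n 0
  have h2 : ∏ p ∈ J, (1 + ((0 : ℝ) - 1) / (p : ℝ)) = ∏ p ∈ J, (1 - 1 / (p : ℝ)) :=
    prod_congr rfl fun p _ => by ring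
  rw [← h2, ← h1]
  refine av_mono fun w => ?_
  rcases Nat.eq_zero_or_pos w with h | h
  · rw [h, tb_zero]
    simp
  · rw [zero_pow h.ne']
    exact Nat.cast_nonneg _

theorem choose_le (w j : ℕ) : (w.choose j : ℝ) ≤ 5 ^ w / 4 ^ j := by
  rw [le_div_iff₀ (by positivity)]
  have h := add_pow (4 : ℝ) 1 w
  have h1 : (4 : ℝ) + 1 = 5 := by norm_num
  rw [h1] at h
  rw [h]
  rcases Nat.lt_or_ge w j with hj | hj
  · rw [Nat.choose_eq_zero_of_lt hj]
    simp only [Nat.cast_zero, zero_mul]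
    exact sum_nonneg fun k _ => by positivity
  · have h2 := single_le_sum (s := range (w + 1))
      (f := fun k => (4 : ℝ) ^ k * 1 ^ (w - k) * (w.choose k : ℝ))
      (fun k _ => by positivity) (mem_range.2 (Nat.lt_succ_of_le hj))
    simp only [one_pow, mul_one] at h2 ⊢
    rw [mul_comm]
    exact h2

/-- upper bound of the error factor -/
theorem av_choose_le {J : Finset ℕ} (hJ : ∀ p ∈ J, p.Prime) {S : ℝ}
    (hS : ∑ p ∈ J, 1 / (p : ℝ) ≤ S) (n j : ℕ) :
    av J n (fun w => (w.choose j : ℝ)) ≤ Real.exp (4 * S) / 4 ^ j := by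
  have h1 : av J n (fun w => (w.choose j : ℝ)) ≤ av J n (fun w => (1 / 4 ^ j) * 5 ^ w) := by
    refine av_mono fun w => ?_
    have := choose_le w j
    rw [div_mul_eq_mul_div, one_mul]
    exact this
  refine h1.trans ?_
  rw [av_smul, av_pow hJ n 5, div_mul_eq_mul_div, one_mul]
  refine div_le_div_of_nonneg_right ?_ (by positivity)
  calc ∏ p ∈ J, (1 + ((5 : ℝ) - 1) / (p : ℝ)) ≤ ∏ p ∈ J, Real.exp (4 * (1 / (p : ℝ))) := by
        refine prod_le_prod (fun p _ => by positivity) fun p _ => ?_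
        have := Real.add_one_le_exp (4 * (1 / (p : ℝ)))
        have e : ((5 : ℝ) - 1) / (p : ℝ) = 4 * (1 / (p : ℝ)) := by ring
        rw [e]
        linarith
    _ = Real.exp (∑ p ∈ J, 4 * (1 / (p : ℝ))) := (Real.exp_sum _ _).symm
    _ ≤ Real.exp (4 * S) := by
        rw [Real.exp_le_exp, ← mul_sum]
        linarith

/-- lower bound of a product of local factors -/
theorem prod_ge_exp {J : Finset ℕ} (hJ : ∀ p ∈ J, p.Prime) {S : ℝ}
    (hS : ∑ p ∈ J, 1 / (p : ℝ) ≤ S) : Real.exp (-(2 * S)) ≤ ∏ p ∈ J, (1 - 1 / (p : ℝ)) := by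
  have h1 : ∀ p ∈ J, Real.exp (-(2 * (1 / (p : ℝ)))) ≤ 1 - 1 / (p : ℝ) := by
    intro p hp
    have h3 : (2 : ℝ) ≤ p := by exact_mod_cast (hJ p hp).two_le
    have h4 : 1 / (p : ℝ) ≤ 1 / 2 := one_div_le_one_div_of_le (by norm_num) h3
    have h5 : 0 < 1 / (p : ℝ) := by positivity
    set t := 1 / (p : ℝ)
    have h2 : 0 < 1 - t := by linarith
    have h6 : (1 - t)⁻¹ ≤ Real.exp (2 * t) := by
      have h7 : (1 - t)⁻¹ ≤ 1 + 2 * t := by
        rw [inv_le_iff_one_le_mul₀ h2]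
        nlinarith
      linarith [Real.add_one_le_exp (2 * t)]
    rw [Real.exp_neg]
    rw [inv_le_comm₀ (Real.exp_pos _) h2]
    exact h6
  calc Real.exp (-(2 * S)) ≤ Real.exp (∑ p ∈ J, -(2 * (1 / (p : ℝ)))) := by
        rw [Real.exp_le_exp, sum_neg_distrib, ← mul_sum]
        linarith
    _ = ∏ p ∈ J, Real.exp (-(2 * (1 / (p : ℝ)))) := Real.exp_sum _ _
    _ ≤ _ := prod_le_prod (fun p _ => (Real.exp_pos _).le) h1

/-- the error factor is small relative to the main factor -/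
theorem av_ratio {J : Finset ℕ} (hJ : ∀ p ∈ J, p.Prime) {S : ℝ}
    (hS : ∑ p ∈ J, 1 / (p : ℝ) ≤ S) (n b j : ℕ) :
    av J n (fun w => (w.choose j : ℝ)) ≤
      Real.exp (6 * S) / 4 ^ j * av J n (fun w => (tb b w : ℝ)) := by
  have h1 := av_choose_le hJ hS n j
  have h2 := (prod_ge_exp hJ hS).trans (av_tb_ge hJ n b)
  calc av J n (fun w => (w.choose j : ℝ)) ≤ Real.exp (4 * S) / 4 ^ j := h1
    _ = Real.exp (6 * S) / 4 ^ j * Real.exp (-(2 * S)) := by
        rw [div_mul_eq_mul_div, ← Real.exp_add]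
        congr 2
        ring
    _ ≤ _ := mul_le_mul_of_nonneg_left h2 (by positivity)

/-- average of the indicator of one class over a period -/
theorem av_single {L : Finset ℕ} (hL : ∀ p ∈ L, p.Prime) {q : ℕ} (hq : q ∈ L) (n : ℕ) :
    (∑ t ∈ range (∏ p ∈ L, p), (if q ∣ 1 * t + n then (1 : ℝ) else 0)) /
      ((∏ p ∈ L, p : ℕ) : ℝ) = 1 / (q : ℝ) := by
  have h1 : ∀ t, (if q ∣ 1 * t + n then (1 : ℝ) else 0) =
      ∏ p ∈ L, (if p = q then (if q ∣ 1 * t + n then (1 : ℝ) else 0) else 1) := by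
    intro t
    rw [prod_ite_eq' L q, if_pos hq]
  rw [sum_congr rfl fun t _ => h1 t]
  rw [avg_prod_coprime L (fun p => p) (fun p hp => (hL p hp).pos)
    (fun p hp r hr hne => (Nat.coprime_primes (hL p hp) (hL r hr)).2 hne)
    (fun p t => if p = q then (if q ∣ 1 * t + n then (1 : ℝ) else 0) else 1)
    (fun p _ t => by
      by_cases h : p = q
      · subst h
        simp only [if_true, dvd_per]
      · simp only [if_neg h])]
  rw [prod_eq_single q]
  · simp only [if_true]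
    rw [sum_one_class (hL q hq)]
  · intro p hp hne
    simp only [if_neg hne, sum_const, card_range, nsmul_eq_mul, mul_one]
    exact div_self (by exact_mod_cast (hL p hp).ne_zero)
  · intro h
    exact absurd hq h

/-- complexity of the binomial coefficient -/
theorem Cx_choose {Q n j : ℕ} (J : Finset ℕ) (hJ : ∀ p ∈ J, p.Prime ∧ p ∣ Q) :
    Cx Q ((1 + J.card) ^ j) (fun t => ((hit J n t).choose j : ℝ)) := by
  have hfun : (fun t => ((hit J n t).choose j : ℝ)) =
      (fun t => ∑ U ∈ J.powersetCard j, ∏ p ∈ U, (if p ∣ 1 * t + n then (1 : ℝ) else 0)) := by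
    funext t
    have h1 : ∀ U ∈ J.powersetCard j, ∏ p ∈ U, (if p ∣ 1 * t + n then (1 : ℝ) else 0) =
        if U ⊆ J.filter (fun p => p ∣ 1 * t + n) then 1 else 0 := by
      intro U hU
      rw [mem_powersetCard] at hU
      split_ifs with h
      · refine prod_eq_one fun p hp => ?_
        rw [if_pos (mem_filter.1 (h hp)).2]
      · have h2 : ∃ p ∈ U, ¬ p ∣ 1 * t + n := by
          by_contra hcon
          push Not at hcon
          exact h fun p hp => mem_filter.2 ⟨hU.1 hp, hcon p hp⟩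
        obtain ⟨p, hp, hpn⟩ := h2
        exact prod_eq_zero hp (if_neg hpn)
    rw [sum_congr rfl h1, sum_ite, sum_const_zero, add_zero, sum_const, nsmul_eq_mul, mul_one]
    unfold hit
    rw [← card_powersetCard]
    congr 1
    congr 1
    ext U
    rw [mem_filter, mem_powersetCard, mem_powersetCard]
    constructor
    · rintro ⟨h2, h3⟩
      exact ⟨⟨h2.trans (filter_subset _ _), h3⟩, h2⟩
    · rintro ⟨⟨_, h3⟩, h2⟩
      exact ⟨h2, h3⟩
  rw [hfun]
  have h1 : Cx Q (∑ U ∈ J.powersetCard j, 1)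
      (fun t => ∑ U ∈ J.powersetCard j, ∏ p ∈ U, (if p ∣ 1 * t + n then (1 : ℝ) else 0)) := by
    refine Cx_sum _ _ _ fun U hU => ?_
    rw [mem_powersetCard] at hU
    have h2 := Cx_prod (Q := Q) U (fun _ => 1) (fun p t => if p ∣ 1 * t + n then (1 : ℝ) else 0)
      (fun p hp => Cx_dvd (hJ p (hU.1 hp)).1 (hJ p (hU.1 hp)).2 (not_dvd_one (hJ p (hU.1 hp)).1))
    rwa [prod_const_one] at h2
  refine Cx_mono h1 ?_
  rw [sum_const, smul_eq_mul, mul_one, card_powersetCard]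
  exact (Nat.choose_le_pow _ _).trans (Nat.pow_le_pow_left (by omega) _)

end Vale.Agent.P013
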