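import Vale.Agent.P013.Loc

/-!
# P013: the sieve inequality
-/

open Finset P003

namespace Vale.Agent.P013

/-- prime factors of `M` in the `r`-th range -/
def Jr (M X r : ℕ) : Finset ℕ := (JJ X 0 r).filter (fun p => p ∣ M)

/-- prime factors of `M` exceeding `X` -/
def Lg (M X : ℕ) : Finset ℕ := M.primeFactors.filter (fun p => X < p)

/-- moduli -/
def md (M X k : ℕ) : ℕ := if k < RR X then ∏ p ∈ Jr M X k, p else ∏ p ∈ Lg M X, p

/-- product of all prime factors of `M` -/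
def Qm (M X : ℕ) : ℕ := ∏ k ∈ range (RR X + 1), md M X k

theorem mem_Jr {M X r p : ℕ} :
    p ∈ Jr M X r ↔ (zz X (r + 1) < p ∧ p ≤ zz X r ∧ p.Prime ∧ 0 < p) ∧ p ∣ M := by
  unfold Jr
  rw [mem_filter, mem_JJ]

theorem prime_Jr {M X r p : ℕ} (h : p ∈ Jr M X r) : p.Prime := (mem_Jr.1 h).1.2.2.1

theorem le_Jr {M X r p : ℕ} (h : p ∈ Jr M X r) : p ≤ X :=
  (mem_Jr.1 h).1.2.1.trans ((zz_anti (Nat.zero_le r)).trans (le_of_eq (zz_zero X)))

theorem prime_Lg {M X p : ℕ} (h : p ∈ Lg M X) : p.Prime :=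
  Nat.prime_of_mem_primeFactors (mem_filter.1 h).1

theorem lt_Lg {M X p : ℕ} (h : p ∈ Lg M X) : X < p := (mem_filter.1 h).2

theorem md_pos (M X k : ℕ) : 0 < md M X k := by
  unfold md
  split_ifs
  · exact prodJ_pos fun p hp => prime_Jr hp
  · exact prodJ_pos fun p hp => prime_Lg hp

theorem Qm_pos (M X : ℕ) : 0 < Qm M X := prod_pos fun k _ => md_pos M X k

theorem coprime_prod {A B : Finset ℕ} (hA : ∀ p ∈ A, p.Prime) (hB : ∀ p ∈ B, p.Prime)
    (hAB : ∀ p ∈ A, p ∉ B) : (∏ p ∈ A, p).Coprime (∏ p ∈ B, p) := by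
  refine Nat.Coprime.prod_left fun p hp => Nat.Coprime.prod_right fun q hq => ?_
  rw [Nat.coprime_primes (hA p hp) (hB q hq)]
  rintro rfl
  exact hAB p hp hq

theorem md_coprime {M X k l : ℕ} (hk : k < RR X + 1) (hl : l < RR X + 1) (h : k ≠ l) :
    (md M X k).Coprime (md M X l) := by
  unfold md
  split_ifs with h1 h2 h2
  · refine coprime_prod (fun p hp => prime_Jr hp) (fun p hp => prime_Jr hp) fun p hp hq => ?_
    exact (disjoint_left.1 (JJ_disj (X := X) (D := 0) h)) (mem_filter.1 hp).1 (mem_filter.1 hq).1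
  · refine coprime_prod (fun p hp => prime_Jr hp) (fun p hp => prime_Lg hp) fun p hp hq => ?_
    exact absurd (le_Jr hp) (not_le.2 (lt_Lg hq))
  · refine coprime_prod (fun p hp => prime_Lg hp) (fun p hp => prime_Jr hp) fun p hp hq => ?_
    exact absurd (le_Jr hq) (not_le.2 (lt_Lg hp))
  · omega

theorem hit_per {J : Finset ℕ} {n q : ℕ} (hq : ∀ p ∈ J, p ∣ q) (t : ℕ) :
    hit J n (t + q) = hit J n t := by
  unfold hit
  congr 1
  refine filter_congr fun p hp => ?_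
  have e : 1 * (t + q) + n = (1 * t + n) + q := by ring
  rw [e]
  exact Nat.dvd_add_left (hq p hp)

theorem dvd_Qm_Jr {M X r p : ℕ} (hr : r < RR X) (hp : p ∈ Jr M X r) : p ∣ Qm M X := by
  have h1 : p ∣ md M X r := by
    unfold md
    rw [if_pos hr]
    exact dvd_prod_of_mem (fun p => p) hp
  exact h1.trans (dvd_prod_of_mem (md M X) (mem_range.2 (by omega)))

theorem dvd_Qm_Lg {M X p : ℕ} (hp : p ∈ Lg M X) : p ∣ Qm M X := by
  have h1 : p ∣ md M X (RR X) := by
    unfold md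
    rw [if_neg (lt_irrefl _)]
    exact dvd_prod_of_mem (fun p => p) hp
  exact h1.trans (dvd_prod_of_mem (md M X) (mem_range.2 (by omega)))

/-- average over `[H, 2H)` of a product of functions of the hits -/
theorem master {M X : ℕ} (n : ℕ) (f : ℕ → ℕ → ℝ) (h : ℕ → ℝ) (c : ℕ → ℕ)
    (hf : ∀ r < RR X, Cx (Qm M X) (c r) (fun t => f r (hit (Jr M X r) n t)))
    (hh : Cx (Qm M X) 1 h) (hper : ∀ t, h (t + ∏ p ∈ Lg M X, p) = h t) (H : ℕ) :
    |∑ t ∈ Ico H (2 * H), (∏ r ∈ range (RR X), f r (hit (Jr M X r) n t)) * h t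
      - H * ((∏ r ∈ range (RR X), av (Jr M X r) n (f r)) *
        ((∑ t ∈ range (∏ p ∈ Lg M X, p), h t) / ((∏ p ∈ Lg M X, p : ℕ) : ℝ)))| ≤
      (∏ r ∈ range (RR X), c r : ℕ) := by
  have h1 : Cx (Qm M X) ((∏ r ∈ range (RR X), c r) * 1)
      (fun t => (∏ r ∈ range (RR X), f r (hit (Jr M X r) n t)) * h t) :=
    Cx_mul (Cx_prod (range (RR X)) c (fun r t => f r (hit (Jr M X r) n t))
      fun r hr => hf r (mem_range.1 hr)) hh
  have h2 := Cx_avg (Qm_pos M X) h1 H
  rw [mul_one] at h2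
  have h3 := avg_prod_coprime (range (RR X + 1)) (md M X) (fun k _ => md_pos M X k)
    (fun k hk l hl hkl => md_coprime (mem_range.1 hk) (mem_range.1 hl) hkl)
    (fun k t => if k < RR X then f k (hit (Jr M X k) n t) else h t)
    (fun k hk t => by
      unfold md
      by_cases hk' : k < RR X
      · simp only [if_pos hk']
        rw [hit_per fun p hp => dvd_prod_of_mem (fun p => p) hp]
      · simp only [if_neg hk']
        exact hper t)
  have h4 : ∀ t, ∏ k ∈ range (RR X + 1), (if k < RR X then f k (hit (Jr M X k) n t) else h t) =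
      (∏ r ∈ range (RR X), f r (hit (Jr M X r) n t)) * h t := by
    intro t
    rw [prod_range_succ, if_neg (lt_irrefl _)]
    congr 1
    exact prod_congr rfl fun r hr => if_pos (mem_range.1 hr)
  have h5 : ∏ k ∈ range (RR X + 1), ((∑ t ∈ range (md M X k),
      (if k < RR X then f k (hit (Jr M X k) n t) else h t)) / (md M X k : ℝ)) =
      (∏ r ∈ range (RR X), av (Jr M X r) n (f r)) *
        ((∑ t ∈ range (∏ p ∈ Lg M X, p), h t) / ((∏ p ∈ Lg M X, p : ℕ) : ℝ)) := by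
    rw [prod_range_succ]
    congr 1
    · refine prod_congr rfl fun r hr => ?_
      unfold av md
      simp only [if_pos (mem_range.1 hr)]
    · unfold md
      simp only [if_neg (lt_irrefl _)]
  rw [sum_congr rfl fun t _ => h4 t, h5] at h3
  have h6 : (H : ℝ) / (Qm M X : ℝ) *
      ∑ t ∈ range (Qm M X), (∏ r ∈ range (RR X), f r (hit (Jr M X r) n t)) * h t =
      H * ((∏ r ∈ range (RR X), av (Jr M X r) n (f r)) *
        ((∑ t ∈ range (∏ p ∈ Lg M X, p), h t) / ((∏ p ∈ Lg M X, p : ℕ) : ℝ))) := by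
    rw [← h3]
    unfold Qm
    ring
  rw [h6] at h2
  exact h2

/-- the error functions -/
noncomputable def fU (b r₀ r w : ℕ) : ℝ :=
  if r = r₀ then (w.choose (2 * (b + r) + 1) : ℝ) else (tb (b + r) w : ℝ)

/-- the weight -/
noncomputable def Wt (M X b n t : ℕ) : ℝ :=
  ∏ r ∈ range (RR X), (tb (b + r) (hit (Jr M X r) n t) : ℝ)

theorem tb_le_choose {b w : ℕ} (hw : 1 ≤ w) : tb b w ≤ w.choose (2 * b + 1) := by
  unfold tb
  rw [if_neg (by omega)]
  obtain ⟨m, rfl⟩ : ∃ m, w = m + 1 := ⟨w - 1, by omega⟩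
  rw [Nat.add_sub_cancel, Nat.choose_succ_succ]
  exact Nat.le_add_right _ _

theorem Wt_nonneg (M X b n t : ℕ) : 0 ≤ Wt M X b n t :=
  prod_nonneg fun _ _ => Nat.cast_nonneg _

theorem fU_nonneg (b r₀ r w : ℕ) : 0 ≤ fU b r₀ r w := by
  unfold fU
  split_ifs <;> exact Nat.cast_nonneg _

theorem pointwise {M X : ℕ} (hM : M ≠ 0) (b n t : ℕ) (h : ¬ (1 * t + n).Coprime M) :
    Wt M X b n t ≤ ∑ r₀ ∈ range (RR X), ∏ r ∈ range (RR X), fU b r₀ r (hit (Jr M X r) n t) +
      ∑ p ∈ Lg M X, Wt M X b n t * (if p ∣ 1 * t + n then 1 else 0) := by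
  obtain ⟨p, hp, hp1, hp2⟩ := Nat.Prime.not_coprime_iff_dvd.1 h
  have hA : 0 ≤ ∑ r₀ ∈ range (RR X), ∏ r ∈ range (RR X), fU b r₀ r (hit (Jr M X r) n t) :=
    sum_nonneg fun _ _ => prod_nonneg fun _ _ => fU_nonneg _ _ _ _
  have hB : 0 ≤ ∑ p ∈ Lg M X, Wt M X b n t * (if p ∣ 1 * t + n then (1 : ℝ) else 0) :=
    sum_nonneg fun _ _ => mul_nonneg (Wt_nonneg _ _ _ _ _) (by split_ifs <;> norm_num)
  by_cases hpX : X < p
  · have hpL : p ∈ Lg M X := mem_filter.2 ⟨Nat.mem_primeFactors.2 ⟨hp, hp2, hM⟩, hpX⟩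
    have h1 := single_le_sum (s := Lg M X)
      (f := fun p => Wt M X b n t * (if p ∣ 1 * t + n then (1 : ℝ) else 0))
      (fun _ _ => mul_nonneg (Wt_nonneg _ _ _ _ _) (by split_ifs <;> norm_num)) hpL
    simp only [if_pos hp1, mul_one] at h1
    linarith
  · obtain ⟨r, _, hr, h1, h2⟩ := exists_range (X := X) (τ := 0) hp.two_le
      (by rw [zz_zero]; omega)
    have hpJ : p ∈ Jr M X r := mem_Jr.2 ⟨⟨h1, h2, hp, hp.pos⟩, hp2⟩
    have hw : 1 ≤ hit (Jr M X r) n t := card_pos.2 ⟨p, mem_filter.2 ⟨hpJ, hp1⟩⟩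
    have h3 : Wt M X b n t ≤ ∏ r' ∈ range (RR X), fU b r r' (hit (Jr M X r') n t) := by
      unfold Wt
      refine prod_le_prod (fun _ _ => Nat.cast_nonneg _) fun r' _ => ?_
      unfold fU
      split_ifs with h4
      · subst h4
        exact_mod_cast tb_le_choose hw
      · exact le_rfl
    have h4 := single_le_sum (s := range (RR X))
      (f := fun r₀ => ∏ r' ∈ range (RR X), fU b r₀ r' (hit (Jr M X r') n t))
      (fun _ _ => prod_nonneg fun _ _ => fU_nonneg _ _ _ _) (mem_range.2 hr)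
    linarith

/-- complexity of the factors -/
def cc (M X b r : ℕ) : ℕ := (1 + (Jr M X r).card) ^ (2 * (b + r) + 1)

theorem Cx_tb' {M X b r n : ℕ} (hr : r < RR X) :
    Cx (Qm M X) (cc M X b r) (fun t => (tb (b + r) (hit (Jr M X r) n t) : ℝ)) := by
  have h := Cx_tb (Q := Qm M X) (W := 1) (n := n) (b := b + r) (Jr M X r)
    (fun p hp => ⟨prime_Jr hp, dvd_Qm_Jr hr hp, not_dvd_one (prime_Jr hp)⟩)
  refine Cx_mono h ?_
  unfold cc
  exact Nat.pow_le_pow_right (by omega) (by omega)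

theorem Cx_fU {M X b r₀ r n : ℕ} (hr : r < RR X) :
    Cx (Qm M X) (cc M X b r) (fun t => fU b r₀ r (hit (Jr M X r) n t)) := by
  unfold fU
  by_cases h : r = r₀
  · simp only [if_pos h]
    exact Cx_choose (Jr M X r) (fun p hp => ⟨prime_Jr hp, dvd_Qm_Jr hr hp⟩)
  · simp only [if_neg h]
    exact Cx_tb' hr

theorem main_ineq {M X : ℕ} (hM : M ≠ 0) {S : ℝ}
    (hS : ∀ r, ∑ p ∈ JJ X 0 r, 1 / (p : ℝ) ≤ S) (b n H : ℕ)
    (h : ∀ t ∈ Ico H (2 * H), ¬ (1 * t + n).Coprime M) :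
    H * (∏ r ∈ range (RR X), av (Jr M X r) n (fun w => (tb (b + r) w : ℝ))) *
      (1 - ∑ r ∈ range (RR X), Real.exp (6 * S) / 4 ^ (2 * (b + r) + 1) -
        ∑ p ∈ Lg M X, 1 / (p : ℝ)) ≤
      (∏ r ∈ range (RR X), cc M X b r : ℕ) * (1 + RR X + (Lg M X).card) := by
  set N : ℝ := ((∏ r ∈ range (RR X), cc M X b r : ℕ) : ℝ) with hN
  set E : ℝ := ∏ r ∈ range (RR X), av (Jr M X r) n (fun w => (tb (b + r) w : ℝ)) with hE
  have hLpos : ((∏ p ∈ Lg M X, p : ℕ) : ℝ) ≠ 0 := by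
    exact_mod_cast (prodJ_pos fun p hp => prime_Lg hp).ne'
  have hone : (∑ t ∈ range (∏ p ∈ Lg M X, p), (fun _ : ℕ => (1 : ℝ)) t) /
      ((∏ p ∈ Lg M X, p : ℕ) : ℝ) = 1 := by
    simp only [sum_const, card_range, nsmul_eq_mul, mul_one]
    exact div_self hLpos
  -- the weight
  have m1 := master (M := M) (X := X) n (fun r w => (tb (b + r) w : ℝ)) (fun _ => 1)
    (cc M X b) (fun r hr => Cx_tb' hr) (Cx_const (by simp)) (fun _ => rfl) H
  rw [hone, mul_one] at m1
  simp only [mul_one] at m1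
  rw [← hE, ← hN] at m1
  -- the small primes
  have m2 : ∀ r₀ ∈ range (RR X), ∑ t ∈ Ico H (2 * H),
      ∏ r ∈ range (RR X), fU b r₀ r (hit (Jr M X r) n t) ≤
      H * (Real.exp (6 * S) / 4 ^ (2 * (b + r₀) + 1) * E) + N := by
    intro r₀ hr₀
    have m := master (M := M) (X := X) n (fun r w => fU b r₀ r w) (fun _ => 1)
      (cc M X b) (fun r hr => Cx_fU hr) (Cx_const (by simp)) (fun _ => rfl) H
    rw [hone, mul_one] at m
    simp only [mul_one] at m
    rw [← hN] at m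
    have m' := (abs_le.1 m).2
    have hp : ∏ r ∈ range (RR X), av (Jr M X r) n (fun w => fU b r₀ r w) ≤
        Real.exp (6 * S) / 4 ^ (2 * (b + r₀) + 1) * E := by
      rw [hE, ← mul_prod_erase _ _ hr₀, ← mul_prod_erase (range (RR X))
        (fun r => av (Jr M X r) n (fun w => (tb (b + r) w : ℝ))) hr₀, ← mul_assoc]
      have e1 : ∏ r ∈ (range (RR X)).erase r₀, av (Jr M X r) n (fun w => fU b r₀ r w) =
          ∏ r ∈ (range (RR X)).erase r₀, av (Jr M X r) n (fun w => (tb (b + r) w : ℝ)) := by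
        refine prod_congr rfl fun r hr => ?_
        unfold fU
        simp only [if_neg (ne_of_mem_erase hr)]
      rw [e1]
      refine mul_le_mul_of_nonneg_right ?_
        (prod_nonneg fun r _ => av_nonneg fun w => Nat.cast_nonneg _)
      unfold fU
      simp only [if_true]
      refine av_ratio (fun p hp => prime_Jr hp) ?_ n (b + r₀) (2 * (b + r₀) + 1)
      refine le_trans ?_ (hS r₀)
      exact sum_le_sum_of_subset_of_nonneg (filter_subset _ _) fun p _ _ => by positivity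
    have := mul_le_mul_of_nonneg_left hp (Nat.cast_nonneg H)
    linarith
  -- the large primes
  have m3 : ∀ p ∈ Lg M X, ∑ t ∈ Ico H (2 * H), Wt M X b n t *
      (if p ∣ 1 * t + n then (1 : ℝ) else 0) ≤ H * (E * (1 / (p : ℝ))) + N := by
    intro p hp
    have m := master (M := M) (X := X) n (fun r w => (tb (b + r) w : ℝ))
      (fun t => if p ∣ 1 * t + n then (1 : ℝ) else 0)
      (cc M X b) (fun r hr => Cx_tb' hr)
      (Cx_dvd (prime_Lg hp) (dvd_Qm_Lg hp) (not_dvd_one (prime_Lg hp)))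
      (fun t => by
        have e : (p ∣ 1 * (t + ∏ p ∈ Lg M X, p) + n) ↔ (p ∣ 1 * t + n) := by
          have e' : 1 * (t + ∏ p ∈ Lg M X, p) + n = (1 * t + n) + ∏ p ∈ Lg M X, p := by ring
          rw [e']
          exact Nat.dvd_add_left (dvd_prod_of_mem (fun p => p) hp)
        simp only [e]) H
    rw [av_single (fun p hp => prime_Lg hp) hp, ← hE, ← hN] at m
    have m' := (abs_le.1 m).2
    unfold Wt
    linarith
  have hsum : ∑ t ∈ Ico H (2 * H), Wt M X b n t ≤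
      ∑ t ∈ Ico H (2 * H), (∑ r₀ ∈ range (RR X), ∏ r ∈ range (RR X),
        fU b r₀ r (hit (Jr M X r) n t) +
      ∑ p ∈ Lg M X, Wt M X b n t * (if p ∣ 1 * t + n then 1 else 0)) :=
    sum_le_sum fun t ht => pointwise hM b n t (h t ht)
  rw [sum_add_distrib, sum_comm, sum_comm (s := Ico H (2 * H)) (t := Lg M X)] at hsum
  have s2 := sum_le_sum m2
  have s3 := sum_le_sum m3
  have m1' := (abs_le.1 m1).1
  have e2 : ∑ r₀ ∈ range (RR X), (H * (Real.exp (6 * S) / 4 ^ (2 * (b + r₀) + 1) * E) + N) =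
      H * E * ∑ r ∈ range (RR X), Real.exp (6 * S) / 4 ^ (2 * (b + r) + 1) + RR X * N := by
    rw [sum_add_distrib, sum_const, card_range, nsmul_eq_mul, mul_sum]
    congr 1
    refine sum_congr rfl fun r _ => ?_
    ring
  have e3 : ∑ p ∈ Lg M X, (H * (E * (1 / (p : ℝ))) + N) =
      H * E * ∑ p ∈ Lg M X, 1 / (p : ℝ) + (Lg M X).card * N := by
    rw [sum_add_distrib, sum_const, nsmul_eq_mul, mul_sum]
    congr 1
    refine sum_congr rfl fun r _ => ?_
    ring
  rw [e2] at s2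
  rw [e3] at s3
  unfold Wt at hsum s3
  nlinarith [hsum, s2, s3, m1']

end Vale.Agent.P013
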